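import Vale.Agent.P100.Pos.CertDefs
import Vale.Agent.P100.Pos.KronMask

/-!
P100: a coefficient certificate for one sheet of the region.
-/

namespace Vale.Agent.P100.Pos.Cert

open Kron

theorem eAone_test : Kron.test 4 242 eAone.n = true :=
  test_of_testMask (by decide +kernel)

end Vale.Agent.P100.Pos.Cert
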